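import Vale.Agent.P235.Comp.Final

namespace Vale.Agent.Results.P235.Composition

open Vale.Agent.P235

/-- Composition theorems for `c₁` and their consequences.
1. Deleting `t` vertices to reach treewidth at most `3`.
2. The classes `Built w j`.
3. `c₁(G)` is bounded in terms of `w`, of `c₁` of the torso of `X` and of `c₁` of the components of
`G - X`, when each component of `G - X` has at most `w` neighbours in `X`.
4. `c₁(G)` is bounded in terms of `w` and of `c₁` of the components of the graphs induced on the
bags of a path decomposition in which consecutive bags share at most `w` vertices.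
5. `c₁(G)` is bounded in terms of `C` if for all edge lengths some shortest path `q` can be removed
such that `c₁ ≤ C` for the components of the rest. -/
theorem result :
    (∀ t : ℕ, ∃ C : ℝ, ∀ (V : Type) [Finite V] (G : SimpleGraph V), G.Connected →
      (∃ S : Finset V, S.card ≤ t ∧ TreewidthLE (G.induce {v | v ∉ S}) 3) → DistortionLE G C) ∧
    (∀ w j : ℕ, ∃ C : ℝ, ∀ (V : Type) [Finite V] (G : SimpleGraph V), G.Connected →
      Built w j G → DistortionLE G C) ∧
    (∀ (w : ℕ) (C : ℝ), ∃ K : ℝ, ∀ (V : Type) [Finite V] (G : SimpleGraph V), G.Connected →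
      ∀ X : Set V, X.Nonempty → (∀ u ∉ X, (attach G X u).ncard ≤ w) →
      DistortionLE (torso G X) C → (∀ u ∉ X, DistortionLE (G.induce (compSet G X u)) C) →
      DistortionLE G K) ∧
    (∀ (w : ℕ) (C : ℝ), ∃ K : ℝ, ∀ (V : Type) [Finite V] (G : SimpleGraph V), G.Connected →
      ∀ (n : ℕ) (B : Fin n → Set V), PathDec G w B →
      (∀ i, ∀ u ∈ B i, DistortionLE (G.induce (compSet G (B i)ᶜ u)) C) → DistortionLE G K) ∧
    (∀ C : ℝ, ∃ K : ℝ, ∀ (V : Type) [Finite V] (G : SimpleGraph V), G.Connected →
      (∀ ℓ : Sym2 V → ℝ, (∀ e ∈ G.edgeSet, 0 < ℓ e) → ∃ (x y : V) (q : G.Walk x y),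
        (q.edges.map ℓ).sum = pathDist G ℓ x y ∧
        ∀ u ∉ q.support, DistortionLE (G.induce (compSet G {v | v ∈ q.support} u)) C) →
      DistortionLE G K) :=
  ⟨deletion_treewidth, built_bounded, composition, pathSums, geodesics⟩

end Vale.Agent.Results.P235.Composition
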