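import Vale.Agent.P235.Bdl.B1

namespace Vale.Agent.Results.P235.TreewidthThree

open Vale.Agent.P235T3

/-- There is an absolute constant `C` such that `c₁(G) ≤ C` for every finite connected graph `G`
of treewidth at most `3`. -/
theorem result : ∃ C : ℝ, ∀ (V : Type) [Finite V] (G : SimpleGraph V), G.Connected →
    TreewidthLE G 3 → DistortionLE G C :=
  treewidth_three

end Vale.Agent.Results.P235.TreewidthThree
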